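import Vale.Agent.P038.H789.Key

/-!
# The set inequality in an arc-minimal counterexample (unweighted)
-/

namespace Vale.Agent.P038.H789

open Finset
open scoped Classical

noncomputable section

variable {V : Type*} [Fintype V]

/-- Reflexive closure. -/
def Rf (D : V → V → Prop) (a b : V) : Prop := a = b ∨ D a b

/-- Out-neighbours. -/
def n1 (D : V → V → Prop) (v : V) : Finset V := univ.filter fun u => D v u

/-- Vertices at distance exactly two. -/
def n2 (D : V → V → Prop) (v : V) : Finset V :=
  univ.filter fun x => x ≠ v ∧ ¬ D v x ∧ ∃ u, D v u ∧ D u x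

/-- A counterexample. -/
def CE (D : V → V → Prop) : Prop :=
  (∀ a b, D a b → ¬ D b a) ∧ ∀ v, (n2 D v).card < (n1 D v).card

theorem mem_n1 {D : V → V → Prop} {v u : V} : u ∈ n1 D v ↔ D v u := by simp [n1]

theorem mem_n2 {D : V → V → Prop} {v x : V} :
    x ∈ n2 D v ↔ x ≠ v ∧ ¬ D v x ∧ ∃ u, D v u ∧ D u x := by simp [n2]

theorem sub_No (D : V → V → Prop) (S : Finset V) : S ⊆ No (Rf D) S := by
  intro b hb
  rw [mem_No]
  exact ⟨b, hb, Or.inl rfl⟩

theorem G_ineq (D : V → V → Prop) (hD : CE D)
    (hmin : ∀ D' : V → V → Prop, CE D' → (∀ a b, D' a b → D a b) → ∀ a b, D a b → D' a b)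
    (X : Finset V) (hX : No (Rf D) X ≠ X) :
    cc (Rf D) (No (Rf D) X) < cc (Rf D) X := by
  by_contra hcon
  push Not at hcon
  set L : Finset V := No (Rf D) X \ X with hL
  set d : Finset V → ℤ := fun T => ((No (Rf D) T \ X).card : ℤ) - 2 * (T.card : ℤ) with hd
  have hXL : X ⊆ No (Rf D) X := sub_No D X
  have hLne : L ≠ ∅ := by
    intro h
    rw [hL, Finset.sdiff_eq_empty_iff_subset] at h
    exact hX (Finset.Subset.antisymm h hXL)
  have hdL : 0 ≤ d L := by
    have h1 : No (Rf D) (No (Rf D) X) \ X = No (Rf D) L \ X := by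
      have h2 : No (Rf D) X = X ∪ L := by
        rw [hL, Finset.union_sdiff_of_subset hXL]
      ext b
      rw [Finset.mem_sdiff, Finset.mem_sdiff]
      constructor
      · rintro ⟨hb, hbX⟩
        refine ⟨?_, hbX⟩
        rw [h2, No_union, Finset.mem_union] at hb
        rcases hb with hb | hb
        · exact sub_No D L (by rw [hL, Finset.mem_sdiff]; exact ⟨hb, hbX⟩)
        · exact hb
      · rintro ⟨hb, hbX⟩
        exact ⟨No_mono Finset.sdiff_subset hb, hbX⟩
    have h3 : ((No (Rf D) L \ X).card : ℤ) + X.card = (No (Rf D) (No (Rf D) X)).card := by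
      rw [← h1]
      exact_mod_cast Finset.card_sdiff_add_card_eq_card (hXL.trans (sub_No D _))
    have h4 : (L.card : ℤ) + X.card = (No (Rf D) X).card := by
      exact_mod_cast Finset.card_sdiff_add_card_eq_card hXL
    simp only [hd]
    unfold cc at hcon
    linarith
  have hT : ∃ T, T ⊆ L ∧ T ≠ L ∧ ∀ S, S ⊆ L → d T ≤ d S := by
    obtain ⟨T, -, hTL, hT⟩ := exists_min d (Finset.empty_subset L)
    by_cases h : T = L
    · refine ⟨∅, Finset.empty_subset L, fun h' => hLne h'.symm, fun S hS => ?_⟩
      have h0 : d ∅ = 0 := by simp [hd, No]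
      rw [h0]
      exact hdL.trans (h ▸ hT S (Finset.empty_subset S) hS)
    · exact ⟨T, hTL, h, fun S hS => hT S (Finset.empty_subset S) hS⟩
  obtain ⟨T, hTL, hTne, hTmin⟩ := hT
  set D' : V → V → Prop := fun y z => D y z ∧ ¬ (y ∈ X ∧ z ∈ L ∧ z ∉ T) with hD'
  have hsub : ∀ a b, D' a b → D a b := fun a b h => h.1
  have hCE : CE D' := by
    refine ⟨fun a b h h' => hD.1 a b h.1 h'.1, fun v => ?_⟩
    by_cases hv : v ∈ X
    · -- rows of `X`
      set K : Finset V := n1 D v ∩ (L \ T) with hK
      set E : Finset V := No (Rf D) K \ (No (Rf D) T ∪ X) with hE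
      have hKL : K ⊆ L := fun z hz => (Finset.mem_sdiff.1 (Finset.mem_inter.1 hz).2).1
      have hKT : Disjoint T K := by
        rw [Finset.disjoint_left]
        intro z hz hz'
        exact (Finset.mem_sdiff.1 (Finset.mem_inter.1 hz').2).2 hz
      have e1 : 2 * K.card ≤ E.card := by
        have h := hTmin (T ∪ K) (Finset.union_subset hTL hKL)
        have h1 : No (Rf D) (T ∪ K) \ X = (No (Rf D) T \ X) ∪ E := by
          ext b
          rw [No_union]
          simp only [hE, Finset.mem_sdiff, Finset.mem_union]
          tauto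
        have h2 : Disjoint (No (Rf D) T \ X) E := by
          rw [Finset.disjoint_left]
          intro b hb hb'
          simp only [hE, Finset.mem_sdiff, Finset.mem_union] at hb hb'
          tauto
        simp only [hd] at h
        rw [h1, Finset.card_union_of_disjoint h2, Finset.card_union_of_disjoint hKT] at h
        push_cast at h
        omega
      have e2 : (n1 D' v).card + K.card = (n1 D v).card := by
        have h1 : n1 D' v = n1 D v \ K := by
          ext u
          simp only [Finset.mem_sdiff, mem_n1, hK, Finset.mem_inter, hD']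
          tauto
        rw [h1]
        exact Finset.card_sdiff_add_card_eq_card Finset.inter_subset_left
      have e3 : (n2 D' v).card + E.card ≤ (n2 D v).card + K.card := by
        have h1 : Disjoint (n2 D' v) E := by
          rw [Finset.disjoint_left]
          intro w hw hw'
          rw [mem_n2] at hw
          simp only [hE, Finset.mem_sdiff, Finset.mem_union, not_or] at hw'
          obtain ⟨-, -, u, hvu, huw⟩ := hw
          obtain ⟨-, hwT, hwX⟩ := hw'
          by_cases hu : u ∈ X
          · have hwL : w ∈ L := by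
              rw [hL, Finset.mem_sdiff, mem_No]
              exact ⟨⟨u, hu, Or.inr huw.1⟩, hwX⟩
            have hwT' : w ∉ T := fun h => hwT (sub_No D T h)
            exact huw.2 ⟨hu, hwL, hwT'⟩
          · have huL : u ∈ L := by
              rw [hL, Finset.mem_sdiff, mem_No]
              exact ⟨⟨v, hv, Or.inr hvu.1⟩, hu⟩
            have huT : u ∈ T := by
              by_contra h
              exact hvu.2 ⟨hv, huL, h⟩
            exact hwT (mem_No.2 ⟨u, huT, Or.inr huw.1⟩)
        rw [← Finset.card_union_of_disjoint h1]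
        refine (Finset.card_le_card ?_).trans (Finset.card_union_le (n2 D v) K)
        intro z hz
        rw [Finset.mem_union] at hz ⊢
        rcases hz with hz | hz
        · rw [mem_n2] at hz
          obtain ⟨hzv, hzn, u, hvu, huz⟩ := hz
          by_cases h : D v z
          · right
            rw [hK, Finset.mem_inter, mem_n1, Finset.mem_sdiff]
            refine ⟨h, ?_⟩
            by_contra h'
            exact hzn ⟨h, fun h'' => h' ⟨h''.2.1, h''.2.2⟩⟩
          · left
            rw [mem_n2]
            exact ⟨hzv, h, u, hvu.1, huz.1⟩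
        · simp only [hE, Finset.mem_sdiff, Finset.mem_union, not_or, mem_No] at hz
          obtain ⟨⟨u, huK, hAuz⟩, hzT, hzX⟩ := hz
          rcases hAuz with rfl | huz
          · right; exact huK
          · have hvu : D v u := mem_n1.1 (Finset.mem_inter.1 huK).1
            by_cases h : D v z
            · right
              rw [hK, Finset.mem_inter, mem_n1, Finset.mem_sdiff]
              refine ⟨h, ?_, ?_⟩
              · rw [hL, Finset.mem_sdiff, mem_No]
                exact ⟨⟨v, hv, Or.inr h⟩, hzX⟩
              · intro h'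
                exact hzT ⟨z, h', Or.inl rfl⟩
            · left
              rw [mem_n2]
              refine ⟨?_, h, u, hvu, huz⟩
              rintro rfl
              exact hzX hv
      have e4 := hD.2 v
      omega
    · -- rows outside `X`
      have h1 : n1 D' v = n1 D v := by
        ext u
        simp only [mem_n1, hD']
        tauto
      have h2 : n2 D' v ⊆ n2 D v := by
        intro z hz
        rw [mem_n2] at hz ⊢
        obtain ⟨hzv, hzn, u, hvu, huz⟩ := hz
        refine ⟨hzv, ?_, u, hvu.1, huz.1⟩
        intro h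
        exact hzn ⟨h, fun h' => hv h'.1⟩
      rw [h1]
      exact (Finset.card_le_card h2).trans_lt (hD.2 v)
  have hall := hmin D' hCE hsub
  have hne : ∃ z, z ∈ L ∧ z ∉ T := by
    by_contra h
    push Not at h
    exact hTne (Finset.Subset.antisymm hTL h)
  obtain ⟨z, hzL, hzT⟩ := hne
  have hz := hzL
  rw [hL, Finset.mem_sdiff, mem_No] at hz
  obtain ⟨⟨y, hy, hyz⟩, hzX⟩ := hz
  rcases hyz with rfl | hyz
  · exact hzX hy
  · exact (hall y z hyz).2 ⟨hy, hzL, hzT⟩

end

end Vale.Agent.P038.H789
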