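import Mathlib

/-!
# The key inequality for P038 (unweighted), by minimisers at shifted parameters
-/

namespace Vale.Agent.P038.H789

open Finset
open scoped Classical

noncomputable section

variable {V : Type*} [Fintype V]

/-- The closed neighbourhood of a set for the relation `A`. -/
def No (A : V → V → Prop) (S : Finset V) : Finset V :=
  univ.filter fun b => ∃ a ∈ S, A a b

/-- `|N[S]| - |S|`. -/
def cc (A : V → V → Prop) (S : Finset V) : ℤ := ((No A S).card : ℤ) - (S.card : ℤ)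

/-- The parametric function `M |N[S]| - k |S|`. -/
def ff (A : V → V → Prop) (M k : ℤ) (S : Finset V) : ℤ :=
  M * ((No A S).card : ℤ) - k * (S.card : ℤ)

theorem mem_No {A : V → V → Prop} {S : Finset V} {b : V} : b ∈ No A S ↔ ∃ a ∈ S, A a b := by
  simp [No]

theorem No_mono {A : V → V → Prop} {S T : Finset V} (h : S ⊆ T) : No A S ⊆ No A T := by
  intro b hb
  rw [mem_No] at hb ⊢
  obtain ⟨a, ha, hab⟩ := hb
  exact ⟨a, h ha, hab⟩

theorem card_No_le (A : V → V → Prop) (S : Finset V) :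
    ((No A S).card : ℤ) ≤ (Fintype.card V : ℤ) := by
  exact_mod_cast Finset.card_le_univ _

theorem card_le_n (S : Finset V) : (S.card : ℤ) ≤ (Fintype.card V : ℤ) := by
  exact_mod_cast Finset.card_le_univ _

theorem No_union (A : V → V → Prop) (S T : Finset V) : No A (S ∪ T) = No A S ∪ No A T := by
  ext b
  simp only [mem_No, Finset.mem_union]
  constructor
  · rintro ⟨a, ha | ha, h⟩
    · exact Or.inl ⟨a, ha, h⟩
    · exact Or.inr ⟨a, ha, h⟩
  · rintro (⟨a, ha, h⟩ | ⟨a, ha, h⟩)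
    · exact ⟨a, Or.inl ha, h⟩
    · exact ⟨a, Or.inr ha, h⟩

theorem submod (A : V → V → Prop) (S T : Finset V) :
    ((No A (S ∪ T)).card : ℤ) + ((No A (S ∩ T)).card : ℤ) ≤
      ((No A S).card : ℤ) + ((No A T).card : ℤ) := by
  have h1 : (No A (S ∩ T)) ⊆ No A S ∩ No A T := by
    intro b hb
    rw [Finset.mem_inter]
    exact ⟨No_mono Finset.inter_subset_left hb, No_mono Finset.inter_subset_right hb⟩
  have h2 := Finset.card_le_card h1
  have h3 := Finset.card_union_add_card_inter (No A S) (No A T)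
  rw [No_union]
  omega

/-- Minimisers at strictly shifted parameters are nested. -/
theorem nested (A : V → V → Prop) {M k k' : ℤ} (hM : 0 ≤ M) (hk : k' < k)
    {Q W Y W' T T' : Finset V} (hYQ : Y ⊆ Q) (hWW : W' ⊆ W)
    (hQT : Q ⊆ T) (hTW : T ⊆ W) (hYT : Y ⊆ T') (hTW' : T' ⊆ W')
    (h : ∀ S, Q ⊆ S → S ⊆ W → ff A M k T ≤ ff A M k S)
    (h' : ∀ S, Y ⊆ S → S ⊆ W' → ff A M k' T' ≤ ff A M k' S) : T' ⊆ T := by
  have a1 := h (T ∪ T') (hQT.trans Finset.subset_union_left)
    (Finset.union_subset hTW (hTW'.trans hWW))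
  have a2 := h' (T ∩ T') (Finset.subset_inter (hYQ.trans hQT) hYT)
    (Finset.inter_subset_right.trans hTW')
  have a3 := submod A T T'
  unfold ff at a1 a2
  have e1 : ((T ∪ T').card : ℤ) = T.card + (T' \ T).card := by
    have := Finset.card_sdiff_add_card T' T
    rw [Finset.union_comm] at this
    omega
  have e2 : (T'.card : ℤ) = (T ∩ T').card + (T' \ T).card := by
    have := Finset.card_sdiff_add_card_inter T' T
    rw [Finset.inter_comm] at this
    omega
  have a4 := mul_le_mul_of_nonneg_left a3 hM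
  have e3 : (0 : ℤ) ≤ ((T' \ T).card : ℤ) := Int.natCast_nonneg _
  rw [e1] at a1
  rw [e2] at a2
  have a5 : (k - k') * ((T' \ T).card : ℤ) ≤ 0 := by nlinarith
  have a6 : ((T' \ T).card : ℤ) ≤ 0 := by
    by_contra hcon
    push Not at hcon
    have : 0 < (k - k') * ((T' \ T).card : ℤ) := mul_pos (by omega) hcon
    omega
  have a7 : (T' \ T).card = 0 := by omega
  rw [Finset.card_eq_zero, Finset.sdiff_eq_empty_iff_subset] at a7
  exact a7

theorem exists_min (F : Finset V → ℤ) {A B : Finset V} (h : A ⊆ B) :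
    ∃ T, A ⊆ T ∧ T ⊆ B ∧ ∀ S, A ⊆ S → S ⊆ B → F T ≤ F S := by
  obtain ⟨T, hT, hmin⟩ := Finset.exists_min_image
    (univ.filter fun S : Finset V => A ⊆ S ∧ S ⊆ B) F ⟨A, by simp [h]⟩
  simp only [Finset.mem_filter, Finset.mem_univ, true_and] at hT hmin
  exact ⟨T, hT.1, hT.2, fun S h1 h2 => hmin S ⟨h1, h2⟩⟩

/-- **The key inequality.** -/
theorem keyT (A : V → V → Prop) (Q W Y W' : V → Finset V)
    (hQW : ∀ x, Q x ⊆ W x)
    (hY : ∀ y z, z ∈ Y y ↔ ∀ x, A x y → z ∈ Q x)
    (hW' : ∀ y z, z ∈ W' y ↔ ∀ x, A x y → z ∈ W x)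
    (col : ∀ x T, Q x ⊆ T → T ⊆ W x → cc A (Q x) ≤ cc A T)
    (row : ∀ z (S : Finset V), (∀ x ∈ S, z ∈ W x ∧ z ∉ Q x) →
      S.card ≤ (univ.filter fun y => (∃ x ∈ S, A x y) ∧ z ∈ W' y).card) :
    ∑ x, (cc A (W x) - cc A (Q x)) ≤ ∑ y, (cc A (W' y) - cc A (Y y)) := by
  set n : ℕ := Fintype.card V with hn
  set M : ℕ := 2 * n ^ 2 + 1 with hMdef
  set J : ℕ := M * n with hJ
  have hYQ : ∀ x y, A x y → Y y ⊆ Q x := fun x y h z hz => (hY y z).1 hz x h
  have hWW : ∀ x y, A x y → W' y ⊆ W x := fun x y h z hz => (hW' y z).1 hz x h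
  have hYW : ∀ y, Y y ⊆ W' y := fun y z hz => (hW' y z).2 fun x hx => hQW x ((hY y z).1 hz x hx)
  -- minimisers
  have ht : ∀ (k : ℤ) (x : V), ∃ T, Q x ⊆ T ∧ T ⊆ W x ∧
      ∀ S, Q x ⊆ S → S ⊆ W x → ff A M k T ≤ ff A M k S :=
    fun k x => exists_min (ff A M k) (hQW x)
  choose t t1 t2 t3 using ht
  have ht' : ∀ (k : ℤ) (y : V), ∃ T, Y y ⊆ T ∧ T ⊆ W' y ∧
      ∀ S, Y y ⊆ S → S ⊆ W' y → ff A M k T ≤ ff A M k S :=
    fun k y => exists_min (ff A M k) (hYW y)
  choose t' t1' t2' t3' using ht'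
  have hM0 : (0 : ℤ) ≤ (M : ℤ) := Int.natCast_nonneg _
  have nest : ∀ (k' k : ℤ), k' < k → ∀ x y, A x y → t' k' y ⊆ t k x :=
    fun k' k hk x y hxy => nested A hM0 hk (hYQ x y hxy) (hWW x y hxy) (t1 k x) (t2 k x)
      (t1' k' y) (t2' k' y) (t3 k x) (t3' k' y)
  -- level inequality
  have level : ∀ (k' k : ℤ), k' < k →
      ∑ x, ((W x \ t k x).card : ℤ) ≤ ∑ y, ((W' y \ t' k' y).card : ℤ) := by
    intro k' k hk
    have cnt : ∀ (B : V → Finset V), ∑ x, (B x).card = ∑ z, (univ.filter fun x => z ∈ B x).card := by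
      intro B
      simp only [Finset.card_eq_sum_ones, Finset.sum_filter]
      rw [Finset.sum_comm]
      refine Finset.sum_congr rfl fun x _ => ?_
      rw [← Finset.sum_filter]
      congr 1
      ext z; simp
    have : ∑ x, (W x \ t k x).card ≤ ∑ y, (W' y \ t' k' y).card := by
      rw [cnt (fun x => W x \ t k x), cnt (fun y => W' y \ t' k' y)]
      refine Finset.sum_le_sum fun z _ => ?_
      have hS := row z (univ.filter fun x => z ∈ W x \ t k x) (by
        intro x hx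
        simp only [Finset.mem_filter, Finset.mem_univ, true_and, Finset.mem_sdiff] at hx
        exact ⟨hx.1, fun h => hx.2 (t1 k x h)⟩)
      refine hS.trans (Finset.card_le_card ?_)
      intro y hy
      simp only [Finset.mem_filter, Finset.mem_univ, true_and, Finset.mem_sdiff] at hy ⊢
      obtain ⟨⟨x, ⟨_, hx2⟩, hxy⟩, hzy⟩ := hy
      exact ⟨hzy, fun h => hx2 (nest k' k hk x y hxy h)⟩
    exact_mod_cast this
  -- column sums
  have colsum : ∀ x, (M : ℤ) * (cc A (W x) - cc A (Q x)) ≤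
      ∑ i ∈ Finset.range (J + 1), ((W x \ t (M + i) x).card : ℤ) := by
    intro x
    have claim1 : ∀ j : ℕ, ∑ i ∈ Finset.range j, ((t (M + i) x).card : ℤ) ≤
        ff A M M (t M x) - ff A M (M + j) (t (M + j) x) := by
      intro j
      induction j with
      | zero => simp
      | succ j ih =>
        rw [Finset.sum_range_succ]
        have h1 := t3 (M + (j + 1 : ℕ)) x (t (M + j) x) (t1 _ x) (t2 _ x)
        have h2 : ff A M (M + (j + 1 : ℕ)) (t (M + j) x) =
            ff A M (M + j) (t (M + j) x) - ((t (M + j) x).card : ℤ) := by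
          unfold ff
          push_cast
          ring
        linarith
    have c1 := claim1 (J + 1)
    have c2 := t3 M x (Q x) (Finset.Subset.refl _) (hQW x)
    have c3 : ff A M (M + (J + 1 : ℕ)) (W x) ≤ ff A M (M + (J + 1 : ℕ)) (t (M + (J + 1 : ℕ)) x) := by
      rcases eq_or_ne (t (M + (J + 1 : ℕ)) x) (W x) with h | h
      · rw [h]
      · have hlt : (t (M + (J + 1 : ℕ)) x).card < (W x).card :=
          Finset.card_lt_card ((t2 _ x).ssubset_of_ne h)
        have hlt' : ((t (M + (J + 1 : ℕ)) x).card : ℤ) + 1 ≤ (W x).card := by exact_mod_cast hlt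
        have hg := card_No_le A (W x)
        have hg0 : (0 : ℤ) ≤ ((No A (t (M + (J + 1 : ℕ)) x)).card : ℤ) := Int.natCast_nonneg _
        unfold ff
        have hJz : (J : ℤ) = (M : ℤ) * (n : ℤ) := by rw [hJ]; push_cast; ring
        have m1 : (M : ℤ) * ((No A (W x)).card : ℤ) ≤ (M : ℤ) * (n : ℤ) :=
          mul_le_mul_of_nonneg_left hg hM0
        have m2 : (0 : ℤ) ≤ (M : ℤ) * ((No A (t (M + (J + 1 : ℕ)) x)).card : ℤ) :=
          mul_nonneg hM0 hg0
        have m3 : ((M : ℤ) + ((J + 1 : ℕ) : ℤ)) * (((t (M + (J + 1 : ℕ)) x).card : ℤ) + 1) ≤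
            ((M : ℤ) + ((J + 1 : ℕ) : ℤ)) * ((W x).card : ℤ) :=
          mul_le_mul_of_nonneg_left hlt' (by positivity)
        have m4 : ((J + 1 : ℕ) : ℤ) = (J : ℤ) + 1 := by push_cast; ring
        nlinarith
    have c4 : ∑ i ∈ Finset.range (J + 1), ((W x \ t (M + i) x).card : ℤ) =
        ((J + 1 : ℕ) : ℤ) * ((W x).card : ℤ) -
          ∑ i ∈ Finset.range (J + 1), ((t (M + i) x).card : ℤ) := by
      rw [eq_sub_iff_add_eq, ← Finset.sum_add_distrib]
      have : ∀ i ∈ Finset.range (J + 1), ((W x \ t (M + i) x).card : ℤ) + ((t (M + i) x).card : ℤ) =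
          ((W x).card : ℤ) := by
        intro i _
        have := Finset.card_sdiff_add_card_eq_card (t2 (M + i) x)
        exact_mod_cast this
      rw [Finset.sum_congr rfl this]
      simp
    rw [c4]
    have e1 : ff A M M (Q x) = (M : ℤ) * cc A (Q x) := by unfold ff cc; ring
    have e2 : ff A M (M + (J + 1 : ℕ)) (W x) = (M : ℤ) * cc A (W x) -
        ((J + 1 : ℕ) : ℤ) * ((W x).card : ℤ) := by unfold ff cc; ring
    linarith
  -- row sums
  have start : ∀ y, t' ((M : ℤ) - 1) y = Y y := by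
    intro y
    refine Finset.Subset.antisymm ?_ (t1' _ y)
    intro z hz
    rw [hY]
    intro x hxy
    refine nested A hM0 (show (M : ℤ) - 1 < M by omega) (hYQ x y hxy) (hWW x y hxy)
      (Finset.Subset.refl (Q x)) (hQW x) (t1' _ y) (t2' _ y) ?_ (t3' _ y) hz
    intro S h1 h2
    have := col x S h1 h2
    have e1 : ff A M M (Q x) = (M : ℤ) * cc A (Q x) := by unfold ff cc; ring
    have e2 : ff A M M S = (M : ℤ) * cc A S := by unfold ff cc; ring
    rw [e1, e2]
    exact mul_le_mul_of_nonneg_left this hM0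
  have rowsum : ∀ y, ∑ i ∈ Finset.range J, ((W' y \ t' (M + i) y).card : ℤ) ≤
      (M : ℤ) * (cc A (W' y) - cc A (Y y)) + (n : ℤ) := by
    intro y
    have claim2 : ∀ j : ℕ, ff A M ((M : ℤ) - 1) (t' ((M : ℤ) - 1) y) -
        ff A M ((M : ℤ) - 1 + j) (t' ((M : ℤ) - 1 + j) y) ≤
        ∑ i ∈ Finset.range j, ((t' (M + i) y).card : ℤ) := by
      intro j
      induction j with
      | zero => simp
      | succ j ih =>
        rw [Finset.sum_range_succ]
        have h1 := t3' ((M : ℤ) - 1 + j) y (t' (M + j) y) (t1' _ y) (t2' _ y)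
        have e0 : (M : ℤ) - 1 + ((j + 1 : ℕ) : ℤ) = M + j := by push_cast; ring
        rw [e0]
        have h2 : ff A M ((M : ℤ) - 1 + j) (t' (M + j) y) =
            ff A M (M + j) (t' (M + j) y) + ((t' (M + j) y).card : ℤ) := by
          unfold ff
          ring
        linarith
    have c1 := claim2 J
    have c2 := t3' ((M : ℤ) - 1 + J) y (W' y) (hYW y) (Finset.Subset.refl _)
    have c4 : ∑ i ∈ Finset.range J, ((W' y \ t' (M + i) y).card : ℤ) =
        (J : ℤ) * ((W' y).card : ℤ) -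
          ∑ i ∈ Finset.range J, ((t' (M + i) y).card : ℤ) := by
      rw [eq_sub_iff_add_eq, ← Finset.sum_add_distrib]
      have : ∀ i ∈ Finset.range J, ((W' y \ t' (M + i) y).card : ℤ) + ((t' (M + i) y).card : ℤ) =
          ((W' y).card : ℤ) := by
        intro i _
        have := Finset.card_sdiff_add_card_eq_card (t2' (M + i) y)
        exact_mod_cast this
      rw [Finset.sum_congr rfl this]
      simp
    rw [c4]
    rw [start y] at c1
    have e1 : ff A M ((M : ℤ) - 1) (Y y) = (M : ℤ) * cc A (Y y) + ((Y y).card : ℤ) := by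
      unfold ff cc; ring
    have e2 : ff A M ((M : ℤ) - 1 + J) (W' y) = (M : ℤ) * cc A (W' y) + ((W' y).card : ℤ) -
        (J : ℤ) * ((W' y).card : ℤ) := by unfold ff cc; ring
    have e3 : (0 : ℤ) ≤ ((Y y).card : ℤ) := Int.natCast_nonneg _
    have e4 := card_le_n (W' y)
    linarith
  -- combination
  have s1 : (M : ℤ) * ∑ x, (cc A (W x) - cc A (Q x)) ≤
      ∑ i ∈ Finset.range (J + 1), ∑ x, ((W x \ t (M + i) x).card : ℤ) := by
    rw [Finset.mul_sum, Finset.sum_comm]
    exact Finset.sum_le_sum fun x _ => colsum x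
  have s2 : ∑ i ∈ Finset.range J, ∑ y, ((W' y \ t' (M + i) y).card : ℤ) ≤
      (M : ℤ) * ∑ y, (cc A (W' y) - cc A (Y y)) + (n : ℤ) * n := by
    rw [Finset.mul_sum, Finset.sum_comm]
    have := Finset.sum_le_sum fun y (_ : y ∈ (univ : Finset V)) => rowsum y
    refine this.trans ?_
    rw [Finset.sum_add_distrib]
    simp [hn]
  have s3 : ∑ i ∈ Finset.range (J + 1), ∑ x, ((W x \ t (M + i) x).card : ℤ) ≤
      ∑ i ∈ Finset.range J, ∑ y, ((W' y \ t' (M + i) y).card : ℤ) + (n : ℤ) * n := by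
    rw [Finset.sum_range_succ']
    refine add_le_add ?_ ?_
    · refine Finset.sum_le_sum fun i _ => ?_
      exact level (M + i) (M + (i + 1 : ℕ)) (by push_cast; omega)
    · have : ∑ x, ((W x \ t (M + ((0 : ℕ) : ℤ)) x).card : ℤ) ≤ ∑ _x : V, (n : ℤ) :=
        Finset.sum_le_sum fun x _ => card_le_n _
      refine this.trans ?_
      simp [hn]
  by_contra hcon
  push Not at hcon
  have s4 : ∑ y, (cc A (W' y) - cc A (Y y)) + 1 ≤ ∑ x, (cc A (W x) - cc A (Q x)) := hcon
  have s5 := mul_le_mul_of_nonneg_left s4 hM0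
  have s6 : (M : ℤ) = 2 * (n : ℤ) ^ 2 + 1 := by rw [hMdef]; push_cast; ring
  nlinarith

end

end Vale.Agent.P038.H789
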