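import Vale.Agent.P038.H789.GG

/-!
# Seymour's second neighbourhood conjecture: assembly (unweighted)
-/

namespace Vale.Agent.P038.H789

open Finset
open scoped Classical

noncomputable section

variable {V : Type*} [Fintype V]

/-- Outer pairs. -/
def Feas (D : V → V → Prop) (P Q : V → Finset V) : Prop :=
  (∀ a b, Rf D a b → b ∈ P a) ∧ (∀ a b, Rf D a b → b ∈ Q a) ∧
    ∀ a b, b ∈ P a → a ∈ Q b → a = b

/-- The cost of a pair. -/
def cost (D : V → V → Prop) (P Q : V → Finset V) : ℤ :=
  ∑ a, cc (Rf D) (P a) + ∑ a, cc (Rf D) (Q a)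

theorem Feas.symm {D : V → V → Prop} {P Q : V → Finset V} (h : Feas D P Q) : Feas D Q P :=
  ⟨h.2.1, h.1, fun a b h1 h2 => (h.2.2 b a h2 h1).symm⟩

theorem cost_symm (D : V → V → Prop) (P Q : V → Finset V) : cost D P Q = cost D Q P := by
  unfold cost; ring

theorem opt_row {D : V → V → Prop} {P Q : V → Finset V} (h : Feas D P Q)
    (hmin : ∀ P' Q' : V → Finset V, Feas D P' Q' → cost D P Q ≤ cost D P' Q')
    (z : V) (T : Finset V) (hT : P z ⊆ T) (hT2 : ∀ x ∈ T, x = z ∨ z ∉ Q x) :
    cc (Rf D) (P z) ≤ cc (Rf D) T := by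
  have hf : Feas D (Function.update P z T) Q := by
    refine ⟨fun a b hab => ?_, h.2.1, fun a b hb ha => ?_⟩
    · by_cases haz : a = z
      · subst haz
        rw [Function.update_self]
        exact hT (h.1 _ _ hab)
      · rw [Function.update_of_ne haz]
        exact h.1 _ _ hab
    · by_cases haz : a = z
      · subst haz
        rw [Function.update_self] at hb
        rcases hT2 b hb with h' | h'
        · exact h'.symm
        · exact absurd ha h'
      · rw [Function.update_of_ne haz] at hb
        exact h.2.2 a b hb ha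
  have h1 := hmin _ _ hf
  unfold cost at h1
  have e1 := Finset.add_sum_erase univ (fun a => cc (Rf D) (P a)) (Finset.mem_univ z)
  have e2 := Finset.add_sum_erase univ (fun a => cc (Rf D) (Function.update P z T a))
    (Finset.mem_univ z)
  have e3 : ∑ a ∈ univ.erase z, cc (Rf D) (Function.update P z T a) =
      ∑ a ∈ univ.erase z, cc (Rf D) (P a) := by
    refine Finset.sum_congr rfl fun a ha => ?_
    rw [Function.update_of_ne (Finset.ne_of_mem_erase ha)]
  simp only [Function.update_self] at e2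
  rw [e3] at e2
  linarith

theorem cnt1 (R : V → Finset V) (hR : ∀ x, x ∈ R x) :
    (∑ x, ((univ.filter fun a => a = x ∨ x ∉ R a).card : ℤ)) + ∑ a, ((R a).card : ℤ) =
      (Fintype.card V : ℤ) * (Fintype.card V + 1) := by
  have h1 : ∑ a, (R a).card = ∑ x, (univ.filter fun a => x ∈ R a).card := by
    simp only [Finset.card_eq_sum_ones, Finset.sum_filter]
    rw [Finset.sum_comm]
    refine Finset.sum_congr rfl fun x _ => ?_
    rw [← Finset.sum_filter]
    congr 1
    ext z; simp
  have h2 : ∀ x, (univ.filter fun a => a = x ∨ x ∉ R a).card + (univ.filter fun a => x ∈ R a).card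
      = Fintype.card V + 1 := by
    intro x
    have e1 : (univ.filter fun a => a = x ∨ x ∉ R a) =
        insert x (univ.filter fun a => ¬ x ∈ R a) := by
      ext a; simp
    have e2 : x ∉ (univ.filter fun a => ¬ x ∈ R a) := by simp [hR x]
    rw [e1, Finset.card_insert_of_notMem e2]
    have e3 := Finset.card_filter_add_card_filter_not (s := (univ : Finset V)) (fun a => x ∈ R a)
    rw [Finset.card_univ] at e3
    omega
  have h3 : ∑ x, (univ.filter fun a => a = x ∨ x ∉ R a).card + ∑ a, (R a).card =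
      Fintype.card V * (Fintype.card V + 1) := by
    rw [h1, ← Finset.sum_add_distrib, Finset.sum_congr rfl fun x _ => h2 x]
    simp
  exact_mod_cast h3

theorem No_cc (D : V → V → Prop)
    (hG : ∀ X : Finset V, No (Rf D) X ≠ X → cc (Rf D) (No (Rf D) X) < cc (Rf D) X)
    (X : Finset V) : cc (Rf D) (No (Rf D) X) ≤ cc (Rf D) X := by
  by_cases h : No (Rf D) X = X
  · rw [h]
  · exact (hG X h).le

theorem main_false [Nonempty V] (D : V → V → Prop) (hD : CE D)
    (hG : ∀ X : Finset V, No (Rf D) X ≠ X → cc (Rf D) (No (Rf D) X) < cc (Rf D) X) : False := by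
  -- an optimal outer pair
  have hne : ∃ PQ : (V → Finset V) × (V → Finset V), Feas D PQ.1 PQ.2 ∧
      ∀ P' Q' : V → Finset V, Feas D P' Q' → cost D PQ.1 PQ.2 ≤ cost D P' Q' := by
    have h0 : Feas D (fun a => univ.filter fun b => Rf D a b)
        (fun a => univ.filter fun b => Rf D a b) := by
      refine ⟨fun a b h => by simp [h], fun a b h => by simp [h], fun a b h1 h2 => ?_⟩
      simp only [Finset.mem_filter, Finset.mem_univ, true_and] at h1 h2
      rcases h1 with h1 | h1
      · exact h1
      · rcases h2 with h2 | h2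
        · exact h2.symm
        · exact absurd h2 (hD.1 _ _ h1)
    obtain ⟨PQ, hPQ, hmin⟩ := Finset.exists_min_image
      (univ.filter fun PQ : (V → Finset V) × (V → Finset V) => Feas D PQ.1 PQ.2)
      (fun PQ => cost D PQ.1 PQ.2) ⟨(_, _), by simpa using h0⟩
    simp only [Finset.mem_filter, Finset.mem_univ, true_and] at hPQ hmin
    exact ⟨PQ, hPQ, fun P' Q' h => hmin (P', Q') h⟩
  obtain ⟨⟨P, Q⟩, hF, hmin⟩ := hne
  simp only at hF hmin
  have hP := hF.1
  have hQ := hF.2.1
  have hPQ := hF.2.2
  have rfl' : ∀ x, Rf D x x := fun x => Or.inl rfl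
  -- derived families
  set W : V → Finset V := fun x => univ.filter fun a => a = x ∨ x ∉ P a with hW
  set X : V → Finset V := fun z => univ.filter fun x => ∀ a, Rf D a z → x ∈ P a with hX
  set Y : V → Finset V := fun z => univ.filter fun x => ∀ a, Rf D a z → x ∈ Q a with hY
  set W' : V → Finset V := fun y => univ.filter fun z => ∀ x, Rf D x y → z ∈ W x with hW'
  have mW : ∀ x a, a ∈ W x ↔ (a = x ∨ x ∉ P a) := by intro x a; simp [hW]
  have mX : ∀ z x, x ∈ X z ↔ ∀ a, Rf D a z → x ∈ P a := by intro z x; simp [hX]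
  have mY : ∀ z x, x ∈ Y z ↔ ∀ a, Rf D a z → x ∈ Q a := by intro z x; simp [hY]
  have mW' : ∀ y z, z ∈ W' y ↔ ∀ x, Rf D x y → z ∈ W x := by intro y z; simp [hW']
  have hQW : ∀ x, Q x ⊆ W x := by
    intro x a ha
    rw [mW]
    by_contra h
    push Not at h
    exact h.1 (hPQ a x h.2 ha)
  have hXself : ∀ z, z ∈ X z := fun z => (mX z z).2 fun a ha => hP a z ha
  have hYself : ∀ z, z ∈ Y z := fun z => (mY z z).2 fun a ha => hQ a z ha
  have hM : ∀ a b, b ∈ No (Rf D) (X a) → a ∈ No (Rf D) (Y b) → a = b := by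
    intro a b hb ha
    rw [mem_No] at hb ha
    obtain ⟨x, hx, hxb⟩ := hb
    obtain ⟨y, hy, hya⟩ := ha
    have h1 : x ∈ P y := (mX a x).1 hx y hya
    have h2 : y ∈ Q x := (mY b y).1 hy x hxb
    have h3 : y = x := hPQ y x h1 h2
    subst h3
    have h4 : y ∈ P a := (mX a y).1 hx a (rfl' a)
    have h5 : y ∈ Q b := (mY b y).1 hy b (rfl' b)
    have h6 : a = y := hPQ a y h4 (hQ y a hya)
    have h7 : y = b := hPQ y b (hP y b hxb) h5
    exact h6.trans h7
  -- optimality
  have col : ∀ x T, Q x ⊆ T → T ⊆ W x → cc (Rf D) (Q x) ≤ cc (Rf D) T := by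
    intro x T h1 h2
    refine opt_row hF.symm ?_ x T h1 fun a ha => (mW x a).1 (h2 ha)
    intro P' Q' h
    have := hmin Q' P' h.symm
    rw [cost_symm D Q P, cost_symm D P' Q']
    exact this
  have row : ∀ z (S : Finset V), (∀ x ∈ S, z ∈ W x ∧ z ∉ Q x) →
      S.card ≤ (univ.filter fun y => (∃ x ∈ S, Rf D x y) ∧ z ∈ W' y).card := by
    intro z S hS
    have hSP : ∀ x ∈ S, x ∉ P z := by
      intro x hx
      obtain ⟨h1, h2⟩ := hS x hx
      rcases (mW x z).1 h1 with h | h
      · subst h
        exact absurd (hQ z z (rfl' z)) h2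
      · exact h
    have hdis : Disjoint (P z) S := by
      rw [Finset.disjoint_left]
      intro x hx hx'
      exact hSP x hx' hx
    have h1 := opt_row hF hmin z (P z ∪ S) Finset.subset_union_left (by
      intro x hx
      rcases Finset.mem_union.1 hx with h | h
      · by_cases h' : z ∈ Q x
        · exact Or.inl (hPQ z x h h').symm
        · exact Or.inr h'
      · exact Or.inr (hS x h).2)
    have h2 : (No (Rf D) (P z ∪ S)).card =
        (No (Rf D) S \ No (Rf D) (P z)).card + (No (Rf D) (P z)).card := by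
      rw [No_union, Finset.card_sdiff_add_card, Finset.union_comm]
    have h3 : (P z ∪ S).card = (P z).card + S.card := Finset.card_union_of_disjoint hdis
    have h4 : S.card ≤ (No (Rf D) S \ No (Rf D) (P z)).card := by
      unfold cc at h1
      rw [h2, h3] at h1
      push_cast at h1
      omega
    refine h4.trans (Finset.card_le_card ?_)
    intro y hy
    rw [Finset.mem_sdiff, mem_No, mem_No] at hy
    simp only [Finset.mem_filter, Finset.mem_univ, true_and]
    refine ⟨hy.1, (mW' y z).2 fun x hxy => (mW x z).2 (Or.inr fun h => hy.2 ⟨x, h, hxy⟩)⟩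
  have key := keyT (Rf D) Q W Y W' hQW (fun y z => mY y z) (fun y z => mW' y z) col row
  -- counting
  have i1 := cnt1 P (fun x => hP x x (rfl' x))
  have i2 := cnt1 X hXself
  have i3 := cnt1 (fun a => No (Rf D) (P a)) (fun x => sub_No D _ (hP x x (rfl' x)))
  have i4 := cnt1 (fun a => No (Rf D) (X a)) (fun x => sub_No D _ (hXself x))
  have j2 : ∀ x, No (Rf D) (W x) = univ.filter fun z => z = x ∨ x ∉ X z := by
    intro x
    ext z
    rw [mem_No]
    simp only [Finset.mem_filter, Finset.mem_univ, true_and]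
    constructor
    · rintro ⟨a, ha, haz⟩
      rcases (mW x a).1 ha with h | h
      · subst h
        by_cases hx : a ∈ X z
        · exact Or.inl (hPQ z a ((mX z a).1 hx z (rfl' z)) (hQ a z haz))
        · exact Or.inr hx
      · exact Or.inr fun h' => h ((mX z x).1 h' a haz)
    · rintro (h | h)
      · subst h
        exact ⟨z, (mW z z).2 (Or.inl rfl), rfl' z⟩
      · rw [mX] at h
        push Not at h
        obtain ⟨a, haz, hxa⟩ := h
        exact ⟨a, (mW x a).2 (Or.inr hxa), haz⟩
  have j3 : ∀ y, W' y = univ.filter fun a => a = y ∨ y ∉ No (Rf D) (P a) := by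
    intro y
    ext a
    rw [mW']
    simp only [Finset.mem_filter, Finset.mem_univ, true_and]
    constructor
    · intro h
      by_cases hy : y ∈ No (Rf D) (P a)
      · left
        rw [mem_No] at hy
        obtain ⟨x, hx, hxy⟩ := hy
        rcases (mW x a).1 (h x hxy) with h' | h'
        · subst h'
          rcases (mW y a).1 (h y (rfl' y)) with h'' | h''
          · exact h''
          · exact absurd (hP a y hxy) h''
        · exact absurd hx h'
      · exact Or.inr hy
    · rintro (h | h) x hxy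
      · subst h
        rw [mW]
        by_cases hx : x ∈ P a
        · exact Or.inl (hPQ a x hx (hQ x a hxy))
        · exact Or.inr hx
      · rw [mW]
        exact Or.inr fun h' => h (mem_No.2 ⟨x, h', hxy⟩)
  have j4 : ∀ y, No (Rf D) (W' y) ⊆ univ.filter fun z => z = y ∨ y ∉ No (Rf D) (X z) := by
    intro y z hz
    rw [mem_No] at hz
    obtain ⟨a, ha, haz⟩ := hz
    simp only [Finset.mem_filter, Finset.mem_univ, true_and]
    by_cases hy : y ∈ No (Rf D) (X z)
    · left
      have hXP : X z ⊆ P a := fun x hx => (mX z x).1 hx a haz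
      have hy2 : y ∈ No (Rf D) (P a) := No_mono hXP hy
      rw [j3] at ha
      simp only [Finset.mem_filter, Finset.mem_univ, true_and] at ha
      rcases ha with h | h
      · subst h
        exact hM z a hy (mem_No.2 ⟨a, hYself a, haz⟩)
      · exact absurd hy2 h
    · exact Or.inr hy
  have k2 : ∑ x, ((No (Rf D) (W x)).card : ℤ) =
      ∑ x, ((univ.filter fun z => z = x ∨ x ∉ X z).card : ℤ) :=
    Finset.sum_congr rfl fun x _ => by rw [j2 x]
  have k3 : ∑ y, ((W' y).card : ℤ) =
      ∑ y, ((univ.filter fun a => a = y ∨ y ∉ No (Rf D) (P a)).card : ℤ) :=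
    Finset.sum_congr rfl fun y _ => by rw [j3 y]
  have k4 : ∑ y, ((No (Rf D) (W' y)).card : ℤ) ≤
      ∑ y, ((univ.filter fun z => z = y ∨ y ∉ No (Rf D) (X z)).card : ℤ) :=
    Finset.sum_le_sum fun y _ => by exact_mod_cast Finset.card_le_card (j4 y)
  have k1 : ∑ x, ((W x).card : ℤ) = ∑ x, ((univ.filter fun a => a = x ∨ x ∉ P a).card : ℤ) := rfl
  have exp : ∀ B : V → Finset V, ∑ x, cc (Rf D) (B x) =
      ∑ x, ((No (Rf D) (B x)).card : ℤ) - ∑ x, ((B x).card : ℤ) := by
    intro B
    unfold cc
    rw [Finset.sum_sub_distrib]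
  have ineq : ∑ a, cc (Rf D) (X a) + ∑ a, cc (Rf D) (Y a) ≤ cost D P Q := by
    rw [Finset.sum_sub_distrib, Finset.sum_sub_distrib, exp W, exp W'] at key
    unfold cost
    rw [exp X, exp P]
    linarith
  -- the comparison pair
  have hF2 : Feas D (fun a => No (Rf D) (X a)) (fun a => No (Rf D) (Y a)) :=
    ⟨fun a b h => mem_No.2 ⟨a, hXself a, h⟩, fun a b h => mem_No.2 ⟨a, hYself a, h⟩, hM⟩
  have c1 := hmin _ _ hF2
  have c2 : ∀ a, cc (Rf D) (No (Rf D) (X a)) ≤ cc (Rf D) (X a) := fun a => No_cc D hG _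
  have c3 : ∀ a, cc (Rf D) (No (Rf D) (Y a)) ≤ cc (Rf D) (Y a) := fun a => No_cc D hG _
  have c4 := Finset.sum_le_sum fun a (_ : a ∈ (univ : Finset V)) => c2 a
  have c5 := Finset.sum_le_sum fun a (_ : a ∈ (univ : Finset V)) => c3 a
  have closedX : ∀ a, No (Rf D) (X a) = X a := by
    by_contra h
    push Not at h
    obtain ⟨a, ha⟩ := h
    have c6 := Finset.sum_lt_sum (fun a (_ : a ∈ (univ : Finset V)) => c2 a)
      ⟨a, Finset.mem_univ a, hG _ ha⟩
    unfold cost at c1 ineq
    linarith
  have closedY : ∀ a, No (Rf D) (Y a) = Y a := by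
    by_contra h
    push Not at h
    obtain ⟨a, ha⟩ := h
    have c6 := Finset.sum_lt_sum (fun a (_ : a ∈ (univ : Finset V)) => c3 a)
      ⟨a, Finset.mem_univ a, hG _ ha⟩
    unfold cost at c1 ineq
    linarith
  -- a minimal nonempty closed set
  obtain ⟨C, hC, hCmin⟩ := Finset.exists_min_image
    (univ.filter fun C : Finset V => C.Nonempty ∧ No (Rf D) C = C) (fun C => C.card)
    ⟨univ, by
      simp only [Finset.mem_filter, Finset.mem_univ, true_and]
      exact ⟨Finset.univ_nonempty, Finset.Subset.antisymm (Finset.subset_univ _) (sub_No D _)⟩⟩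
  simp only [Finset.mem_filter, Finset.mem_univ, true_and] at hC hCmin
  obtain ⟨⟨a, haC⟩, hCc⟩ := hC
  have hclosed : ∀ S : Finset V, No (Rf D) S = S → ∀ x, x ∈ S → x ∈ C → C ⊆ S := by
    intro S hS x hxS hxC
    have h1 : No (Rf D) (S ∩ C) = S ∩ C := by
      refine Finset.Subset.antisymm ?_ (sub_No D _)
      intro b hb
      rw [Finset.mem_inter]
      constructor
      · rw [← hS]; exact No_mono Finset.inter_subset_left hb
      · rw [← hCc]; exact No_mono Finset.inter_subset_right hb
    have h2 := hCmin (S ∩ C) ⟨⟨x, Finset.mem_inter.2 ⟨hxS, hxC⟩⟩, h1⟩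
    have h3 : S ∩ C = C := Finset.eq_of_subset_of_card_le Finset.inter_subset_right h2
    rw [← h3]
    exact Finset.inter_subset_left
  have hpos := hD.2 a
  have hpos' : 0 < (n1 D a).card := by omega
  obtain ⟨b, hb⟩ := Finset.card_pos.1 hpos'
  rw [mem_n1] at hb
  have hbC : b ∈ C := by
    rw [← hCc]
    exact mem_No.2 ⟨a, haC, Or.inr hb⟩
  have h1 : b ∈ No (Rf D) (X a) := by
    rw [closedX a]
    exact hclosed (X a) (closedX a) a (hXself a) haC hbC
  have h2 : a ∈ No (Rf D) (Y b) := by
    rw [closedY b]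
    exact hclosed (Y b) (closedY b) b (hYself b) hbC haC
  have h3 := hM a b h1 h2
  subst h3
  exact hD.1 a a hb hb

theorem snc [Nonempty V] (D : V → V → Prop) (hD : ∀ a b, D a b → ¬ D b a) :
    ∃ v, (n1 D v).card ≤ (n2 D v).card := by
  by_contra hcon
  push Not at hcon
  obtain ⟨D1, hD1, hmin⟩ := (measure (fun D : V → V → Prop =>
    (univ.filter fun p : V × V => D p.1 p.2).card)).wf.has_min {D | CE D} ⟨D, hD, hcon⟩
  have hD1' : CE D1 := hD1
  refine main_false D1 hD1' fun X hX => G_ineq D1 hD1' ?_ X hX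
  intro D' hD' hsub a b hab
  by_contra hn
  refine hmin D' hD' ?_
  show (univ.filter fun p : V × V => D' p.1 p.2).card <
    (univ.filter fun p : V × V => D1 p.1 p.2).card
  refine Finset.card_lt_card ⟨?_, ?_⟩
  · intro p hp
    simp only [Finset.mem_filter, Finset.mem_univ, true_and] at hp ⊢
    exact hsub _ _ hp
  · intro h
    have : (a, b) ∈ (univ.filter fun p : V × V => D' p.1 p.2) := h (by simp [hab])
    simp only [Finset.mem_filter, Finset.mem_univ, true_and] at this
    exact hn this

end

end Vale.Agent.P038.H789
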